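import Mathlib

/-! The Walsh characters form a Hilbert basis of `L²` of the fair coin product measure on
`ι → Bool`, for a countable index type `ι`. -/

set_option autoImplicit false

noncomputable section

namespace Crest.Agent.Lib.Walsh

open MeasureTheory ProbabilityTheory Set
open scoped ENNReal symmDiff

/-- the fair coin -/
def coin : Measure Bool := (PMF.uniformOfFintype Bool).toMeasure

instance : IsProbabilityMeasure coin := by unfold coin; infer_instance

/-- the product of fair coins -/
def coins (ι : Type*) : Measure (ι → Bool) := Measure.infinitePi fun _ : ι => coin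

instance (ι : Type*) : IsProbabilityMeasure (coins ι) := by unfold coins; infer_instance

/-- the sign of a bit -/
def sg (b : Bool) : ℝ := if b then -1 else 1

lemma sg_mul_self (b : Bool) : sg b * sg b = 1 := by cases b <;> simp [sg]

lemma sg_injective : Function.Injective sg := by
  intro a b h
  cases a <;> cases b <;> simp [sg] at h ⊢ <;> norm_num at h

lemma integral_sg : ∫ b, sg b ∂coin = 0 := by
  unfold coin
  rw [PMF.integral_eq_sum]
  simp [sg]

variable {ι : Type*}

/-- the Walsh character as a continuous function -/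
def chiC (S : Finset ι) : C(ι → Bool, ℝ) :=
  ⟨fun x => ∏ i ∈ S, sg (x i), continuous_finsetProd _ fun i _ =>
    (continuous_of_discreteTopology (f := sg)).comp (continuous_apply i)⟩

@[simp] lemma chiC_apply (S : Finset ι) (x : ι → Bool) : chiC S x = ∏ i ∈ S, sg (x i) := rfl

lemma chiC_empty : chiC (∅ : Finset ι) = 1 := by ext x; simp

lemma chiC_mul [DecidableEq ι] (S T : Finset ι) : chiC S * chiC T = chiC (S ∆ T) := by
  ext x
  simp only [ContinuousMap.mul_apply, chiC_apply]
  have h1 : ∏ i ∈ S, sg (x i) = (∏ i ∈ S \ T, sg (x i)) * ∏ i ∈ S ∩ T, sg (x i) := by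
    rw [← Finset.prod_union (Finset.disjoint_sdiff_inter S T), Finset.sdiff_union_inter]
  have h2 : ∏ i ∈ T, sg (x i) = (∏ i ∈ T \ S, sg (x i)) * ∏ i ∈ S ∩ T, sg (x i) := by
    rw [Finset.inter_comm, ← Finset.prod_union (Finset.disjoint_sdiff_inter T S),
      Finset.sdiff_union_inter]
  have h3 : (∏ i ∈ S ∩ T, sg (x i)) * ∏ i ∈ S ∩ T, sg (x i) = 1 := by
    rw [← Finset.prod_mul_distrib]
    simp [sg_mul_self]
  have h4 : ∏ i ∈ S ∆ T, sg (x i) = (∏ i ∈ S \ T, sg (x i)) * ∏ i ∈ T \ S, sg (x i) := by
    rw [symmDiff_def, Finset.sup_eq_union, Finset.prod_union disjoint_sdiff_sdiff]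
  rw [h1, h2, h4]
  linear_combination ((∏ i ∈ S \ T, sg (x i)) * ∏ i ∈ T \ S, sg (x i)) * h3

lemma integral_chiC (S : Finset ι) (hS : S.Nonempty) : ∫ x, chiC S x ∂(coins ι) = 0 := by
  have h := integral_restrict_infinitePi (fun _ : ι => coin) (s := S)
    (f := fun y : (Π _ : S, Bool) => ∏ i : S, sg (y i))
    (Measurable.of_discrete.aestronglyMeasurable)
  have h2 : ∀ x : ι → Bool, chiC S x = ∏ i : S, sg (S.restrict x i) := by
    intro x
    rw [chiC_apply, ← Finset.prod_coe_sort]
    rfl
  simp_rw [h2]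
  unfold coins
  rw [h, integral_fintype_prod_eq_prod (f := fun _ : S => sg)]
  obtain ⟨i, hi⟩ := hS
  exact Finset.prod_eq_zero (Finset.mem_univ (⟨i, hi⟩ : S)) integral_sg

lemma span_chiC_closure_eq_top :
    (Submodule.span ℝ (range (chiC (ι := ι)))).topologicalClosure = ⊤ := by
  classical
  have h1 : Subalgebra.toSubmodule (Algebra.adjoin ℝ (range (chiC (ι := ι)))) =
      Submodule.span ℝ (range (chiC (ι := ι))) := by
    apply Algebra.adjoin_eq_span_of_subset
    refine Subset.trans ?_ Submodule.subset_span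
    intro x hx
    refine Submonoid.closure_induction (fun _ => id) ⟨∅, chiC_empty⟩ ?_ hx
    rintro - - - - ⟨m, rfl⟩ ⟨n, rfl⟩
    exact ⟨m ∆ n, (chiC_mul m n).symm⟩
  have h2 : (Algebra.adjoin ℝ (range (chiC (ι := ι)))).SeparatesPoints := by
    intro x y hxy
    obtain ⟨i, hi⟩ := Function.ne_iff.mp hxy
    refine ⟨_, ⟨chiC {i}, Algebra.subset_adjoin ⟨{i}, rfl⟩, rfl⟩, ?_⟩
    simpa using fun h => hi (sg_injective h)
  rw [← h1]
  exact congr_arg Subalgebra.toSubmodule
    (ContinuousMap.subalgebra_topologicalClosure_eq_top_of_separatesPoints _ h2)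

variable [Countable ι]

/-- the Walsh character in `L²` -/
def chiL (S : Finset ι) : Lp ℝ 2 (coins ι) := ContinuousMap.toLp (E := ℝ) 2 (coins ι) ℝ (chiC S)

lemma coeFn_chiL (S : Finset ι) : chiL S =ᵐ[coins ι] chiC S :=
  ContinuousMap.coeFn_toLp (coins ι) (chiC S)

lemma span_chiL_closure_eq_top :
    (Submodule.span ℝ (range (chiL (ι := ι)))).topologicalClosure = ⊤ := by
  convert!
    (ContinuousMap.toLp_denseRange (p := 2) ℝ (coins ι) ℝ
      (by simp)).topologicalClosure_map_submodule span_chiC_closure_eq_top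
  rw [Submodule.map_span]
  unfold chiL
  rw [range_comp']
  simp only [ContinuousLinearMap.coe_coe]

lemma orthonormal_chiL : Orthonormal ℝ (chiL (ι := ι)) := by
  classical
  rw [orthonormal_iff_ite]
  intro S T
  unfold chiL
  rw [ContinuousMap.inner_toLp (coins ι) (chiC S) (chiC T)]
  have h : ∀ x, chiC T x * (starRingEnd ℝ) (chiC S x) = chiC (T ∆ S) x := by
    intro x
    rw [← chiC_mul]
    simp
  simp_rw [h]
  split_ifs with hST
  · subst hST
    simp
  · apply integral_chiC
    rw [Finset.nonempty_iff_ne_empty]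
    intro h0
    exact hST (symmDiff_eq_bot.mp h0).symm

/-- The Walsh basis. -/
def walshBasis : HilbertBasis (Finset ι) ℝ (Lp ℝ 2 (coins ι)) :=
  HilbertBasis.mk orthonormal_chiL span_chiL_closure_eq_top.ge

@[simp] lemma coe_walshBasis : ⇑(walshBasis (ι := ι)) = chiL := HilbertBasis.coe_mk _ _

omit [Countable ι] in
/-- Permuting the coordinates preserves the measure. -/
lemma measurePreserving_comp {f : ι → ι} (hf : Function.Injective f) :
    MeasurePreserving (fun (x : ι → Bool) i => x (f i)) (coins ι) (coins ι) :=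
  ⟨by fun_prop, Measure.map_infinitePi_infinitePi_of_inj hf⟩

lemma comp_chiL [DecidableEq ι] {f : ι → ι} (hf : Function.Injective f) (S : Finset ι) :
    Lp.compMeasurePreserving _ (measurePreserving_comp hf) (chiL S) = chiL (S.image f) := by
  apply Lp.ext
  have h1 := Lp.coeFn_compMeasurePreserving (chiL S) (measurePreserving_comp hf)
  have h2 := (measurePreserving_comp hf).quasiMeasurePreserving.ae_eq_comp (coeFn_chiL S)
  filter_upwards [h1, h2, coeFn_chiL (S.image f)] with x a b c
  rw [a, b, c]
  simp [Finset.prod_image hf.injOn]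

lemma inner_indicator_chiL {A : Set (ι → Bool)} (hA : MeasurableSet A) (S : Finset ι) (c : ℝ) :
    inner ℝ (indicatorConstLp 2 hA (measure_ne_top (coins ι) A) c) (chiL S) =
      c * ∫ x in A, chiC S x ∂(coins ι) := by
  rw [L2.inner_indicatorConstLp_eq_inner_setIntegral]
  rw [integral_congr_ae (ae_restrict_of_ae (coeFn_chiL S))]
  simp [mul_comm]

/-- A set on which infinitely many characters are constantly `1` is null. -/
lemma measure_eq_zero_of_chiC {A : Set (ι → Bool)} (hA : MeasurableSet A)
    (hinf : {S : Finset ι | ∀ x ∈ A, chiC S x = 1}.Infinite) : coins ι A = 0 := by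
  set ξ := indicatorConstLp 2 hA (measure_ne_top (coins ι) A) (1 : ℝ) with hξ
  have h1 := (walshBasis.hasSum_inner_mul_inner ξ ξ).summable.tendsto_cofinite_zero
  by_contra hne
  have hpos : 0 < (coins ι).real A := by
    rw [measureReal_def]
    exact ENNReal.toReal_pos hne (measure_ne_top _ _)
  have h2 := h1.eventually (gt_mem_nhds (mul_pos hpos hpos))
  rw [Filter.eventually_cofinite] at h2
  refine hinf (h2.subset ?_)
  intro S hS
  have h3 : inner ℝ ξ (chiL S) = (coins ι).real A := by
    rw [hξ, inner_indicator_chiL, setIntegral_congr_fun hA (g := fun _ => (1 : ℝ)) hS]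
    simp
  simp only [coe_walshBasis, mem_ofPred_eq, not_lt]
  rw [real_inner_comm ξ (chiL S), h3]

end Crest.Agent.Lib.Walsh
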